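import Vale.Agent.P167.N.Kit
import Vale.Agent.P167.QX.QlX
import Vale.Agent.P167.QX.Loops

/-! generated from Vale.Agent.P167.QX.QlX (q < 1 port) -/

set_option autoImplicit false

namespace Vale.Agent.P167.N.QX

open Vale.Agent.P167.QX

open Finset Filter Topology MeasureTheory

open Vale.Agent.P167.A (plane plane_nx)

open Vale.Agent.P167.FK

open Vale.Agent.P167.H199 (cang strand ret mem_strand loop_nx loop_iter iter_congr strand_congr
  cang_congr strand_sub)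

open Vale.Agent.P167.H685 (LE mem_LE nx_loc card_LE_le)

variable {θ : ℝ} {S E : Finset Ed} {a : Ed → Bool → ℝ}

/-- The constant of the bounds. -/
theorem two_div_le {x : ℝ} (h0 : 0 < Real.cos θ) (hx : |x| ≤ 2) :
    |x / (2 * Real.cos θ)| ≤ (Real.cos θ)⁻¹ := by
  rw [abs_div, abs_of_pos (show (0 : ℝ) < 2 * Real.cos θ by linarith), div_le_iff₀ (by linarith)]
  rw [show (Real.cos θ)⁻¹ * (2 * Real.cos θ) = 2 * ((Real.cos θ)⁻¹ * Real.cos θ) by ring,
    inv_mul_cancel₀ h0.ne', mul_one]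
  exact hx

theorem one_le_inv_cos (h0 : 0 < Real.cos θ) : 1 ≤ (Real.cos θ)⁻¹ :=
  (one_le_inv₀ h0).2 (Real.cos_le_one θ)

/-- **The cut functional is bounded.** -/
theorem abs_XcQ_le (ω : Cfg) (ha : ∀ e ∉ E, ∀ b, a e b = 0) (hθ : Kit (2 * Real.cos θ)) :
    |XcQ θ S a ω| ≤ (Real.cos θ)⁻¹ ^ E.card * (Real.cos θ)⁻¹ ^ S.card := by
  have hθ_pos := hθ.pos
  classical
  have h0 : (0 : ℝ) < 2 * Real.cos θ := by linarith
  have h00 : 0 < Real.cos θ := by linarith
  have hc : Real.cos θ ≠ 0 := by intro h; rw [h] at h0; norm_num at h0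
  have hi1 := one_le_inv_cos h00
  have hi0 : 0 ≤ (Real.cos θ)⁻¹ := by positivity
  rw [XcQ_eq ω ha hc, mul_assoc, abs_mul, abs_prod]
  refine mul_le_mul ?_ ?_ (abs_nonneg _) (by positivity)
  · calc ∏ ℓ ∈ (LE ω E).filter (fun ℓ => Disjoint ℓ S),
          |(2 * Real.cos (cang plane θ a ω ℓ)) / (2 * Real.cos θ)|
          ≤ ∏ _ℓ ∈ (LE ω E).filter (fun ℓ => Disjoint ℓ S), (Real.cos θ)⁻¹ :=
            prod_le_prod (fun _ _ => abs_nonneg _) fun ℓ _ =>
              two_div_le h00 (H199.abs_two_cos _)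
        _ = (Real.cos θ)⁻¹ ^ ((LE ω E).filter (fun ℓ => Disjoint ℓ S)).card := by
            rw [prod_const]
        _ ≤ (Real.cos θ)⁻¹ ^ E.card := pow_le_pow_right₀ hi1
            ((card_filter_le _ _).trans (card_LE_le ω E))
  · rw [abs_mul, abs_prod, abs_inv, abs_of_pos (pow_pos h0 _)]
    have h1 : ((2 * Real.cos θ) ^ nS S ω)⁻¹ ≤ ((2 * Real.cos θ) ^ S.card)⁻¹ := by
      refine inv_anti₀ (pow_pos h0 _) (pow_le_pow_of_le_one h0.le hθ.le ?_)
      rw [nS_eq]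
      exact card_LE_le ω S
    calc ((2 * Real.cos θ) ^ nS S ω)⁻¹ *
          ∏ e ∈ S, |2 * Real.cos (cang plane θ a ω (strand (nx ω) S e))|
        ≤ ((2 * Real.cos θ) ^ S.card)⁻¹ * ∏ _e ∈ S, (2 : ℝ) :=
          mul_le_mul h1 (prod_le_prod (fun _ _ => abs_nonneg _) fun _ _ => H199.abs_two_cos _)
            (prod_nonneg fun _ _ => abs_nonneg _) (inv_nonneg.2 (pow_nonneg h0.le _))
      _ = (Real.cos θ)⁻¹ ^ S.card := by
          rw [prod_const, mul_pow, mul_inv, inv_pow]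
          field_simp

end Vale.Agent.P167.N.QX
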