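import Vale.Agent.P167.N.Kit
import Vale.Agent.P167.N.QX.QlX
import Vale.Agent.P167.QX.Thick
import Vale.Agent.P167.QX.Loops

/-! generated from Vale.Agent.P167.QX.Thick (q < 1 port) -/

set_option autoImplicit false

namespace Vale.Agent.P167.N.QX

open Vale.Agent.P167.QX

open Finset Filter Topology MeasureTheory

open Vale.Agent.P167.A (plane plane_nx)

open Vale.Agent.P167.BR

open Vale.Agent.P167.XDL (bS mem_bS loop_cases lp_disj strand_congr')

open Vale.Agent.P167.FK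

open Vale.Agent.P167.FKA (Loc Zq_pos cf_out)

open Vale.Agent.P167.H519 (IsLim)

open Vale.Agent.P167.H199 (cang strand ret mem_strand loop_nx loop_iter iter_congr strand_congr
  cang_congr strand_sub ret_min)

open Vale.Agent.P167.H685 (LE mem_LE nx_loc card_LE_le loop_loc)

variable {D : Finset (ℤ × ℤ)} {ω ω' : Cfg} {θ : ℝ} {a : Ed → Bool → ℝ} {P : Measure Cfg}
  {E : Finset Ed}

theorem abs_XoT_le (ω : Cfg) (ha : ∀ e ∉ E, ∀ b, a e b = 0) (hθ : Kit (2 * Real.cos θ)) :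
    |XoT θ D a ω| ≤
      (Real.cos θ)⁻¹ ^ E.card * 2 ^ ((bS D).filter fun e => hdv e ∉ D).card := by
  have hθ_pos := hθ.pos
  classical
  have h0 : (0 : ℝ) < 2 * Real.cos θ := by linarith
  have h00 : 0 < Real.cos θ := by linarith
  have hc : Real.cos θ ≠ 0 := by intro h; rw [h] at h0; norm_num at h0
  rw [XoT_eq ω ha hc, abs_mul, abs_prod]
  refine mul_le_mul ?_ (abs_XoutQ_le ω) (abs_nonneg _) (by positivity)
  calc ∏ ℓ ∈ (LE ω E).filter (fun ℓ => ∀ e ∈ ℓ, e ∉ eds D),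
        |(2 * Real.cos (cang plane θ a ω ℓ)) / (2 * Real.cos θ)|
        ≤ ∏ _ℓ ∈ (LE ω E).filter (fun ℓ => ∀ e ∈ ℓ, e ∉ eds D), (Real.cos θ)⁻¹ :=
          prod_le_prod (fun _ _ => abs_nonneg _) fun ℓ _ => two_div_le h00 (H199.abs_two_cos _)
      _ = (Real.cos θ)⁻¹ ^ ((LE ω E).filter (fun ℓ => ∀ e ∈ ℓ, e ∉ eds D)).card := by
          rw [prod_const]
      _ ≤ (Real.cos θ)⁻¹ ^ E.card := pow_le_pow_right₀ (one_le_inv_cos h00)
          ((card_filter_le _ _).trans (card_LE_le ω E))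

/-- The number of the loops which visit `D` is bounded. -/
theorem LD_le (D : Finset (ℤ × ℤ)) (ω : Cfg) : LD D ω ≤ (eds D).card + (bS D).card := by
  classical
  rw [QX.LD_eq, nS_eq]
  exact Nat.add_le_add ((card_filter_le _ _).trans card_image_le) (card_LE_le ω (bS D))

theorem inv_pow_LD_le (hθ : Kit (2 * Real.cos θ)) (D : Finset (ℤ × ℤ)) (ω : Cfg) :
    ((2 * Real.cos θ) ^ LD D ω)⁻¹ ≤ ((2 * Real.cos θ) ^ ((eds D).card + (bS D).card))⁻¹ :=
  inv_anti₀ (pow_pos hθ.pos _) (pow_le_pow_of_le_one hθ.pos.le hθ.le (LD_le D ω))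

/-- The factor of a domain is bounded. -/
theorem abs_RT_le (ω : Cfg) (ha : ∀ e ∉ E, ∀ b, a e b = 0) (hθ : Kit (2 * Real.cos θ)) :
    |RT θ D a ω| ≤ (Real.cos θ)⁻¹ ^ E.card * 2 ^ ((bS D).filter fun e => hdv e ∉ D).card *
      ((2 * Real.cos θ) ^ ((eds D).card + (bS D).card))⁻¹ := by
  have h0 := hθ.pos
  have h00 : 0 < Real.cos θ := by linarith
  unfold RT
  rw [abs_div, abs_of_pos (pow_pos h0 _), div_eq_mul_inv]
  exact mul_le_mul (abs_XoT_le ω ha hθ) (inv_pow_LD_le hθ D ω) (inv_nonneg.2 (pow_nonneg h0.le _))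
    (by positivity)

/-- **(TH)** -/
theorem int_thick (hP : IsLim (2 * Real.cos θ) P) (hgd : ∀ᵐ ω ∂P, Good ω)
    (hθ : Kit (2 * Real.cos θ)) (ha : ∀ e ∉ E, ∀ b, a e b = 0) (σ : Cfg) {G : Cfg → ℝ}
    (hG : ∀ ω ω', (∀ v, v ∉ D → ω v = ω' v) → G ω = G ω') (hGq : QL G) {M : ℝ}
    (hM : ∀ ω, Good ω → |G ω| ≤ M) :
    ∫ ω, G ω * XcQ θ (bS D) a ω ∂P =
      rhoT θ D a * ∫ ω, fr D σ ω * (G ω * RT θ D a ω) ∂P := by
  have hθ_pos := hθ.pos
  have h0 : (0 : ℝ) < 2 * Real.cos θ := by linarith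
  have hc : Real.cos θ ≠ 0 := by intro h; rw [h] at h0; norm_num at h0
  have hM0 : 0 ≤ M := (abs_nonneg _).trans (hM eta0 f_good.2.1)
  have h1 : ∫ ω, G ω * XcQ θ (bS D) a ω ∂P =
      ∫ ω, rhoT θ D a * (G ω * XoT θ D a ω / Zq (2 * Real.cos θ) D ω) ∂P := by
    rw [dlr hP h0 hgd (hGq.mul (ql_XcQ (S := bS D) ha hc))
      (M := M * ((Real.cos θ)⁻¹ ^ E.card * (Real.cos θ)⁻¹ ^ (bS D).card)) (fun ω hω => by
        rw [abs_mul]
        exact mul_le_mul (hM ω hω) (abs_XcQ_le ω ha hθ) (abs_nonneg _) hM0) D]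
    exact integral_congr_ae (Eventually.of_forall fun ω => ex_xcT ha hc hG ω)
  have hR := fun ω => abs_RT_le (D := D) (a := a) ω ha hθ
  have hRq : QL (RT θ D a) :=
    (ql_XoT ha hc).div ((ql_LD D).comp fun k => (2 * Real.cos θ) ^ k)
  have h2 : ∫ ω, fr D σ ω * (G ω * RT θ D a ω) ∂P =
      ∫ ω, G ω * XoT θ D a ω / Zq (2 * Real.cos θ) D ω ∂P := by
    rw [dlr hP h0 hgd ((QL.of_loc (fr_loc D σ)).mul (hGq.mul hRq))
      (M := M * ((Real.cos θ)⁻¹ ^ E.card * 2 ^ ((bS D).filter fun e => hdv e ∉ D).card *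
        ((2 * Real.cos θ) ^ ((eds D).card + (bS D).card))⁻¹)) (fun ω hω => by
        rw [abs_mul, abs_mul, abs_of_nonneg (fr_nonneg D σ ω)]
        calc fr D σ ω * (|G ω| * |RT θ D a ω|) ≤ 1 * (|G ω| * |RT θ D a ω|) := by
              gcongr
              exact fr_le_one D σ ω
          _ = |G ω| * |RT θ D a ω| := one_mul _
          _ ≤ _ := mul_le_mul (hM ω hω) (hR ω) (abs_nonneg _) hM0) D]
    exact integral_congr_ae (Eventually.of_forall fun ω => ex_fr hc σ hG ω)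
  rw [h1, h2, integral_const_mul]

end Vale.Agent.P167.N.QX
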