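import Vale.Agent.P167.N.Kit
import Vale.Agent.P167.QX.L1A

/-! generated from Vale.Agent.P167.QX.L1A (q < 1 port) -/

set_option autoImplicit false

namespace Vale.Agent.P167.N.QX

open Vale.Agent.P167.QX

open Finset

open Vale.Agent.P167.A (plane plane_nx plane_sg)

open Vale.Agent.P167.BR hiding dv

open Vale.Agent.P167.XDL (bS mem_bS lp_disj us ds)

open Vale.Agent.P167.FK

open Vale.Agent.P167.H825 (dv epos)

open Vale.Agent.P167.H562.MAJ (Sm)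

open Vale.Agent.P167.H562.SML (smf mem_smf)

open Vale.Agent.P167.H199 (cang strand ret mem_strand loop_nx loop_iter ret_min ret_le Returns
  strand_sub cang_congr ah at')

open Vale.Agent.P167.H685 (LE mem_LE)

variable {K : Finset (ℤ × ℤ)} {ω : Cfg} {θ : ℝ} {a : Ed → Bool → ℝ} {ℓ : Finset Ed} {c : Ed → ℝ}

/-- **The product over the loops off the rows**, for all `θ < π / 2`: the small loops have charge at
most `π / 2 - θ` in absolute value. -/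
theorem LpO_le (h0 : 0 < θ) (h1 : Ang θ) (hc : (Function.support c).Finite)
    (hoff : ∀ e ∉ bS K, a e false + a e true = c e) {d : ℝ}
    (hG : ∀ ℓ, IsLoop ω ℓ → Small d ℓ → |G (dv c) ℓ| ≤ Real.pi / 2 - θ)
    (hfar : ∀ ℓ, IsLoop ω ℓ → Small d ℓ → (∃ e ∈ ℓ, c e ≠ 0) → ∀ e ∈ ℓ, e ∉ eds K) :
    ∃ 𝓕 : Finset (Finset Ed), (∀ ℓ ∈ 𝓕, IsLoop ω ℓ ∧ (∀ e ∈ ℓ, e ∉ eds K) ∧ ¬ Small d ℓ ∧
      ∃ e ∈ ℓ, c e ≠ 0) ∧
      |LpO θ K a ω| ≤ ((Real.cos θ)⁻¹) ^ 𝓕.card * Real.exp (-(Real.tan θ * Sm (dv c) d ω)) := by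
  have h1_lt := h1.lt
  classical
  have hp := Real.pi_pos
  have hcos : 0 < Real.cos θ := Real.cos_pos_of_mem_Ioo ⟨by linarith, by linarith⟩
  have h2 : (2 * Real.cos θ) ≠ 0 := by positivity
  set E := hc.toFinset with hE
  have hEc : ∀ e ∉ E, c e = 0 := fun e he => by
    by_contra h
    exact he (hc.mem_toFinset.2 h)
  have hedge : ∀ ℓ : Finset Ed, (∀ e ∈ ℓ, e ∉ eds K) → ∀ e ∈ ℓ, a e false + a e true = c e := by
    intro ℓ h e he
    refine hoff e fun hS => h e he ?_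
    rw [mem_bS] at hS
    rcases hS with hS | hS
    · exact mem_eds.2 (Or.inl hS.1)
    · exact mem_eds.2 (Or.inr hS.2)
  set val : Finset Ed → ℝ := fun ℓ => (2 * Real.cos (cang plane θ a ω ℓ)) / (2 * Real.cos θ)
    with hval
  set 𝓛 := (LE ω E).filter (fun ℓ => ∀ e ∈ ℓ, e ∉ eds K) with h𝓛
  have hL : LpO θ K a ω = ∏ ℓ ∈ 𝓛, val ℓ := by
    unfold LpO
    apply finprod_mem_eq_prod_of_inter_mulSupport_eq
    ext ℓ
    simp only [Set.mem_inter_iff, Set.mem_ofPred_eq, Function.mem_mulSupport, mem_coe, h𝓛,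
      mem_filter, mem_LE]
    constructor
    · rintro ⟨⟨k1, k3⟩, k2⟩
      refine ⟨⟨⟨k1, ?_⟩, k3⟩, k2⟩
      by_contra hn
      apply k2
      push Not at hn
      rw [cos_loop_zero k1 fun x hx => by
        rw [hedge ℓ k3 x hx]
        exact hEc x fun hE => hn x hE hx]
      exact div_self h2
    · rintro ⟨⟨⟨k1, _⟩, k3⟩, k2⟩
      exact ⟨⟨k1, k3⟩, k2⟩
  have hv : ∀ ℓ ∈ 𝓛, val ℓ = Real.cos (θ + G (dv c) ℓ) / Real.cos θ := by
    intro ℓ hℓ
    obtain ⟨k1, k2⟩ := mem_filter.1 hℓ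
    rw [hval]
    simp only
    rw [cos_flow (mem_LE.1 k1).1 hc (hedge ℓ k2)]
    field_simp
  -- the sum over the small loops
  have hsum : ∑ ℓ ∈ 𝓛.filter (Small d), G (dv c) ℓ = Sm (dv c) d ω := by
    set F := (dv_fin hc).toFinset with hF
    have hF' : ∀ s, dv c s ≠ 0 → s ∈ F := fun s hs => (dv_fin hc).mem_toFinset.2 hs
    obtain ⟨A0, hA0⟩ : ∃ A0 : Finset (ℤ × ℤ), ∀ s, dv c s ≠ 0 → ∀ v : ℤ × ℤ,
        (nm (v - s) : ℝ) < d → v ∈ A0 := by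
      refine ⟨F.biUnion fun s => Bq s (⌈d⌉ + 1), fun s hs v hv => ?_⟩
      rw [mem_biUnion]
      refine ⟨s, hF' s hs, ?_⟩
      have k1 : nm (v - s) < ⌈d⌉ + 1 := by
        have : (nm (v - s) : ℝ) < ((⌈d⌉ + 1 : ℤ) : ℝ) := by
          push_cast
          linarith [Int.le_ceil d]
        exact_mod_cast this
      change max |v.1 - s.1| |v.2 - s.2| < _ at k1
      rw [max_lt_iff, abs_lt, abs_lt] at k1
      rw [Bq_eq, mem_Bx]
      simp only
      omega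
    rw [← H562.MAJ.sum_G (A := A0 ∪ (LE ω E).biUnion vs) hF' (d := d)
      (fun s hs v hv => mem_union_left _ (hA0 s hs v hv)) ω]
    have key : ∀ ℓ, IsLoop ω ℓ → G (dv c) ℓ ≠ 0 → ∃ e ∈ E, e ∈ ℓ := by
      intro ℓ hl hG0
      by_contra hn
      push Not at hn
      exact hG0 (G_zero hl hc fun e he => hEc e fun h => hn e h he)
    refine sum_subset_zero_on_sdiff ?_ ?_ fun _ _ => rfl
    · intro ℓ hℓ
      obtain ⟨k1, k2⟩ := mem_filter.1 hℓ
      obtain ⟨k3, k4⟩ := mem_filter.1 k1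
      rw [mem_smf]
      refine ⟨(mem_LE.1 k3).1, ?_, k2⟩
      obtain ⟨e, he⟩ := (mem_LE.1 k3).1.nonempty
      exact ⟨hdv e, mem_image_of_mem _ he, mem_union_right _
        (mem_biUnion.2 ⟨ℓ, k3, mem_image_of_mem _ he⟩)⟩
    · intro ℓ hℓ
      obtain ⟨k1, k2⟩ := mem_sdiff.1 hℓ
      obtain ⟨k3, -, k4⟩ := mem_smf.1 k1
      by_contra hG0
      apply k2
      obtain ⟨e, he, heℓ⟩ := key ℓ k3 hG0
      have he' : c e ≠ 0 := hc.mem_toFinset.1 he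
      exact mem_filter.2 ⟨mem_filter.2 ⟨mem_LE.2 ⟨k3, e, he, heℓ⟩,
        hfar ℓ k3 k4 ⟨e, heℓ, he'⟩⟩, k4⟩
  refine ⟨𝓛.filter (fun ℓ => ¬ Small d ℓ), fun ℓ hℓ => ?_, ?_⟩
  · obtain ⟨k1, k2⟩ := mem_filter.1 hℓ
    obtain ⟨k3, k4⟩ := mem_filter.1 k1
    obtain ⟨k5, e, k6, k7⟩ := mem_LE.1 k3
    exact ⟨k5, k4, k2, e, k7, hc.mem_toFinset.1 k6⟩
  · rw [hL, abs_prod, ← prod_filter_mul_prod_filter_not 𝓛 (Small d), mul_comm]
    have e1 : ∏ ℓ ∈ 𝓛.filter (fun ℓ => ¬ Small d ℓ), |val ℓ| ≤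
        ((Real.cos θ)⁻¹) ^ (𝓛.filter (fun ℓ => ¬ Small d ℓ)).card := by
      rw [← prod_const]
      refine prod_le_prod (fun _ _ => abs_nonneg _) fun ℓ hℓ => ?_
      rw [hv ℓ (mem_filter.1 hℓ).1, abs_div, abs_of_pos hcos, div_eq_mul_inv]
      exact mul_le_of_le_one_left (by positivity) (Real.abs_cos_le_one _)
    have e2 : ∏ ℓ ∈ 𝓛.filter (Small d), |val ℓ| ≤ Real.exp (-(Real.tan θ * Sm (dv c) d ω)) := by
      rw [← hsum, mul_sum, ← sum_neg_distrib, Real.exp_sum]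
      refine prod_le_prod (fun _ _ => abs_nonneg _) fun ℓ hℓ => ?_
      obtain ⟨k1, k2⟩ := mem_filter.1 hℓ
      have k3 := hG ℓ (mem_LE.1 (mem_filter.1 k1).1).1 k2
      have k4 : 0 ≤ Vale.Agent.P167.H562.wt θ (G (dv c) ℓ) := by
        unfold Vale.Agent.P167.H562.wt
        have := abs_le.1 k3
        exact div_nonneg (Real.cos_nonneg_of_mem_Icc ⟨by linarith, by linarith⟩) hcos.le
      have k5 := Vale.Agent.P167.H562.QM.wt_le_exp h0 (by linarith) (t := G (dv c) ℓ)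
        (k3.trans (by linarith))
      rw [hv ℓ k1]
      unfold Vale.Agent.P167.H562.wt at k4 k5
      rw [abs_of_nonneg k4]
      exact k5
    exact mul_le_mul e1 e2 (prod_nonneg fun _ _ => abs_nonneg _) (by positivity)

end Vale.Agent.P167.N.QX
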